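import Vale.Agent.P354L.Sub

/-!
P354 (helper51): interpolation along a line.
-/

open MeasureTheory Set Filter Topology

namespace Vale.Agent.P354LL

theorem ev (C : ℝ) {a b : ℝ} (h : b < a) :
    ∀ᶠ t in atTop, C * Real.exp (-(a * t)) < Real.exp (-(b * t)) := by
  have h1 : Tendsto (fun t : ℝ => C * Real.exp (-((a - b) * t))) atTop (𝓝 (C * 0)) :=
    (Real.tendsto_exp_neg_atTop_nhds_zero.comp
      (tendsto_id.const_mul_atTop (sub_pos.2 h))).const_mul C
  rw [mul_zero] at h1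
  filter_upwards [h1.eventually (gt_mem_nhds one_pos)] with t ht
  have h2 : Real.exp (-(a * t)) = Real.exp (-((a - b) * t)) * Real.exp (-(b * t)) := by
    rw [← Real.exp_add]; congr 1; ring
  rw [h2, ← mul_assoc]
  exact mul_lt_of_lt_one_left (Real.exp_pos _) ht

variable {E : Type} [NormedAddCommGroup E] [NormedSpace ℝ E]

theorem seg {f f' : ℝ → E} {t d C : ℝ} (hd : 0 ≤ d)
    (h : ∀ s, t ≤ s → s ≤ t + d → HasDerivAt f (f' s) s ∧ ‖f' s‖ ≤ C) :
    ‖f (t + d) - f t‖ ≤ C * d := by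
  have := norm_image_sub_le_of_norm_deriv_le_segment' (f := f) (f' := f') (a := t) (b := t + d)
    (C := C) (fun s hs => (h s hs.1 hs.2).1.hasDerivWithinAt) (fun s hs => (h s hs.1 hs.2.le).2)
    (t + d) ⟨by linarith, le_rfl⟩
  simpa using this

/-- The function decays. -/
theorem dec_f {κ K t0 : ℝ} {f f' : ℝ → E} {m : ℝ → ℝ} (hκ : 0 < κ) (hK : 0 < K)
    (h : ∀ t, t0 < t → HasDerivAt f (f' t) t ∧ ‖f' t‖ ≤ K ∧
      ‖f t‖ ≤ K * (|m t| + Real.exp (-(κ * t))))
    (hi : IntegrableOn (fun t => Real.exp (κ * t) * m t ^ 2) (Ioi t0)) :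
    ∀ᶠ t in atTop, ‖f t‖ ≤ Real.exp (-(3 * κ / 10 * t)) := by
  obtain ⟨I, hI⟩ : ∃ I, I = ∫ t in Ioi t0, Real.exp (κ * t) * m t ^ 2 := ⟨_, rfl⟩
  filter_upwards [eventually_gt_atTop t0, ev (4 * K) (show 3 * κ / 10 < κ by linarith),
    ev (32 * K ^ 3 * I) (show 9 * κ / 10 < κ by linarith)] with t h0 h1 h2
  obtain ⟨H, hH⟩ : ∃ H, H = Real.exp (-(3 * κ / 10 * t)) := ⟨_, rfl⟩
  have H0 : 0 < H := hH ▸ Real.exp_pos _
  have H3 : Real.exp (-(9 * κ / 10 * t)) = H ^ 3 := by
    rw [hH, ← Real.exp_nat_mul]; congr 1; push_cast; ring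
  rw [← hH] at h1 ⊢
  rw [H3] at h2
  by_contra c
  have c := not_le.1 c
  have hl : 0 < H / (2 * K) := by positivity
  have low : ∀ s ∈ Icc t (t + H / (2 * K)),
      Real.exp (κ * t) * (H / (4 * K)) ^ 2 ≤ Real.exp (κ * s) * m s ^ 2 := by
    intro s hs
    have k1 := seg (f := f) (f' := f') (t := t) (d := s - t) (C := K) (by linarith [hs.1])
      fun r r1 _ => ⟨(h r (by linarith)).1, (h r (by linarith)).2.1⟩
    rw [add_sub_cancel] at k1
    have k2 : K * (s - t) ≤ H / 2 := by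
      have := (le_div_iff₀ (by positivity)).1 (show s - t ≤ H / (2 * K) by linarith [hs.2])
      linarith
    have k3 := norm_sub_norm_le (f t) (f s)
    rw [norm_sub_rev] at k3
    have k4 : Real.exp (-(κ * s)) ≤ Real.exp (-(κ * t)) :=
      Real.exp_le_exp.2 (neg_le_neg (mul_le_mul_of_nonneg_left hs.1 hκ.le))
    have k5 := mul_le_mul_of_nonneg_left k4 hK.le
    have k6 : H / (4 * K) ≤ |m s| := by
      rw [div_le_iff₀ (by positivity)]
      linarith [(h s (by linarith [hs.1])).2.2]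
    rw [← sq_abs (m s)]
    exact mul_le_mul (Real.exp_le_exp.2 (mul_le_mul_of_nonneg_left hs.1 hκ.le))
      (pow_le_pow_left₀ (by positivity) k6 2) (by positivity) (Real.exp_pos _).le
  have sub : Icc t (t + H / (2 * K)) ⊆ Ioi t0 := fun s hs => h0.trans_le hs.1
  have i1 := setIntegral_ge_of_const_le_real measurableSet_Icc measure_Icc_lt_top.ne low
    (hi.mono_set sub)
  have i2 := setIntegral_mono_set hi (Eventually.of_forall fun s => by positivity)
    (LE.le.eventuallyLE sub)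
  rw [← hI] at i2
  rw [Real.volume_real_Icc_of_le (by linarith), add_sub_cancel_left] at i1
  have e1 : Real.exp (κ * t) * Real.exp (-(κ * t)) = 1 := by rw [← Real.exp_add]; simp
  have e2 : Real.exp (κ * t) * (H / (4 * K)) ^ 2 * (H / (2 * K)) =
      Real.exp (κ * t) * H ^ 3 / (32 * K ^ 3) := by field_simp; ring
  have i3 := (div_le_iff₀ (by positivity)).1 (e2 ▸ i1.trans i2)
  have i4 := mul_lt_mul_of_pos_left h2 (Real.exp_pos (κ * t))
  have e3 : Real.exp (κ * t) * (32 * K ^ 3 * I * Real.exp (-(κ * t))) =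
      I * (32 * K ^ 3) * (Real.exp (κ * t) * Real.exp (-(κ * t))) := by ring
  rw [e3, e1] at i4
  linarith

/-- **LINE.** -/
theorem line : P354L.LINE := by
  intro E _ _ κ K t0 f g h m hκ H hi
  have hK : 0 ≤ K := (norm_nonneg _).trans (H (t0 + 1) (by linarith)).2.1
  have hf := dec_f (K := K + 1) (f := f) (f' := fun t => g t + h t) hκ (by linarith)
    (fun t ht => ⟨(H t ht).1, by linarith [(H t ht).2.1], (H t ht).2.2.2.2.trans
      (mul_le_mul_of_nonneg_right (by linarith) (by positivity))⟩) hi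
  obtain ⟨T, hT⟩ := eventually_atTop.1 hf
  filter_upwards [eventually_gt_atTop t0, eventually_ge_atTop T, eventually_ge_atTop 0,
    ev (3 + 2 * K) (show κ / 8 < 3 * κ / 20 by linarith)] with t h0 h1 h2 h3
  obtain ⟨d, hd⟩ : ∃ d, d = Real.exp (-(3 * κ / 20 * t)) := ⟨_, rfl⟩
  have d0 : 0 < d := hd ▸ Real.exp_pos _
  have hkt : 0 ≤ κ * t := by positivity
  have d1 : d ≤ 1 := hd ▸ Real.exp_le_one_iff.2 (by linarith)
  have d2 : Real.exp (-(3 * κ / 10 * t)) = d ^ 2 := by
    rw [hd, ← Real.exp_nat_mul]; congr 1; push_cast; ring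
  have d3 : Real.exp (-(κ * t)) ≤ d := hd ▸ Real.exp_le_exp.2 (by linarith)
  rw [← hd] at h3
  have f0 : ‖f t‖ ≤ d ^ 2 := d2 ▸ hT t h1
  have f1 : ‖f (t + d)‖ ≤ d ^ 2 := (hT _ (by linarith)).trans
    (d2 ▸ Real.exp_le_exp.2 (by nlinarith [mul_pos hκ d0]))
  have k := seg (f := fun s => f s - s • g t) (f' := fun s => g s + h s - g t) (t := t)
    (C := 2 * K * d) d0.le fun s s1 s2 => by
      obtain ⟨a1, -, a3, -, -⟩ := H s (by linarith)
      refine ⟨by simpa using a1.fun_sub ((hasDerivAt_id s).smul_const (g t)), ?_⟩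
      have a4 := (H t h0).2.2.2.1 s (by linarith)
      rw [abs_of_nonneg (by linarith)] at a4
      have a5 : Real.exp (-(κ * s)) ≤ d := le_trans
        (Real.exp_le_exp.2 (neg_le_neg (mul_le_mul_of_nonneg_left s1 hκ.le))) d3
      have a6 := norm_add_le (g s - g t) (h s)
      rw [show g s - g t + h s = g s + h s - g t by abel] at a6
      linarith [mul_le_mul_of_nonneg_left a5 hK,
        mul_le_mul_of_nonneg_left (show s - t ≤ d by linarith) hK]
  have e : d • g t = f (t + d) - f t - (f (t + d) - (t + d) • g t - (f t - t • g t)) := by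
    rw [add_smul]; abel
  have k1 : d * ‖g t‖ ≤ d * ((2 + 2 * K) * d) := by
    have k2 := congrArg norm e
    rw [norm_smul, Real.norm_of_nonneg d0.le] at k2
    linarith [norm_sub_le (f (t + d) - f t) (f (t + d) - (t + d) • g t - (f t - t • g t)),
      norm_sub_le (f (t + d)) (f t)]
  have k3 := le_of_mul_le_mul_left k1 d0
  nlinarith

end Vale.Agent.P354LL
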